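import Vale.Agent.P155Z.Sk
import Vale.Agent.P155.CI.Green

/-!
# P155, block GRL: conformal maps, Moebius maps, the Green function of the half-plane
-/

namespace Vale.Agent.P155.Tree.Grl

open MeasureTheory Filter Topology Set Metric Vale.Agent.P155 Vale.Agent.P155.CI

/-- composition of conformal maps -/
theorem conf_trans {A B C : Set ℂ} {f g f' g' : ℂ → ℂ} (h : CI.Conf A B f g) (h' : CI.Conf B C f' g') :
    CI.Conf A C (fun z => f' (f z)) (fun w => g (g' w)) where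
  ho := h.ho
  ho' := h'.ho'
  df := h'.df.comp h.df h.mf
  dg := h.dg.comp h'.dg h'.mg
  mf := fun _ hz => h'.mf (h.mf hz)
  mg := fun _ hw => h.mg (h'.mg hw)
  gf := fun z hz => by rw [h'.gf _ (h.mf hz), h.gf z hz]
  fg := fun w hw => by rw [h.fg _ (h'.mg hw), h'.fg w hw]

theorem image_eq {A B : Set ℂ} {f g : ℂ → ℂ} (h : CI.Conf A B f g) {D : Set ℂ} (hD : D ⊆ A) :
    f '' D = B ∩ g ⁻¹' D := by
  ext z
  constructor
  · rintro ⟨w, hw, rfl⟩
    refine ⟨h.mf (hD hw), ?_⟩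
    rw [mem_preimage, h.gf w (hD hw)]
    exact hw
  · rintro ⟨h1, h2⟩
    exact ⟨g z, h2, h.fg z h1⟩

theorem isOpen_image {A B : Set ℂ} {f g : ℂ → ℂ} (h : CI.Conf A B f g) {D : Set ℂ} (hD : D ⊆ A)
    (ho : IsOpen D) : IsOpen (f '' D) := by
  rw [image_eq h hD]
  exact h.dg.continuousOn.isOpen_inter_preimage h.ho' ho

/-- restriction of a conformal map -/
theorem conf_restrict {A B : Set ℂ} {f g : ℂ → ℂ} (h : CI.Conf A B f g) {D : Set ℂ} (hD : D ⊆ A)
    (ho : IsOpen D) : CI.Conf D (f '' D) f g where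
  ho := ho
  ho' := isOpen_image h hD ho
  df := h.df.mono hD
  dg := h.dg.mono (by rintro _ ⟨w, hw, rfl⟩; exact h.mf (hD hw))
  mf := fun z hz => mem_image_of_mem f hz
  mg := by
    rintro _ ⟨w, hw, rfl⟩
    rw [h.gf w (hD hw)]
    exact hw
  gf := fun z hz => h.gf z (hD hz)
  fg := by
    rintro _ ⟨w, hw, rfl⟩
    rw [h.gf w (hD hw)]

theorem isOpen_HH : IsOpen HH := isOpen_lt continuous_const Complex.continuous_im

/-- the Moebius map of the half-plane onto the disc which vanishes at `ξ` -/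
noncomputable def mob (ξ u : ℂ) : ℂ := (u - ξ) / (u - (starRingEnd ℂ) ξ)

/-- its inverse -/
noncomputable def imob (ξ v : ℂ) : ℂ := (ξ - (starRingEnd ℂ) ξ * v) / (1 - v)

theorem den_ne {ξ u : ℂ} (hξ : ξ ∈ HH) (hu : u ∈ HH) : u - (starRingEnd ℂ) ξ ≠ 0 := by
  intro h
  have h1 := congrArg Complex.im h
  have h2 : 0 < ξ.im := hξ
  have h3 : 0 < u.im := hu
  simp only [Complex.sub_im, Complex.conj_im, Complex.zero_im] at h1
  linarith

theorem norm_mob_lt {ξ u : ℂ} (hξ : ξ ∈ HH) (hu : u ∈ HH) : ‖mob ξ u‖ < 1 := by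
  have h2 : 0 < ξ.im := hξ
  have h3 : 0 < u.im := hu
  rw [mob, norm_div, div_lt_one (norm_pos_iff.2 (den_ne hξ hu))]
  refine lt_of_pow_lt_pow_left₀ 2 (norm_nonneg _) ?_
  rw [Complex.sq_norm, Complex.sq_norm, Complex.normSq_apply, Complex.normSq_apply]
  simp only [Complex.sub_re, Complex.sub_im, Complex.conj_re, Complex.conj_im]
  nlinarith [mul_pos h2 h3]

theorem one_sub_ne {v : ℂ} (hv : v ∈ DD) : 1 - v ≠ 0 := by
  intro h
  have h1 : v = 1 := (sub_eq_zero.1 h).symm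
  rw [h1, mem_ball_zero_iff, norm_one] at hv
  exact lt_irrefl _ hv

theorem imob_mem {ξ v : ℂ} (hξ : ξ ∈ HH) (hv : v ∈ DD) : imob ξ v ∈ HH := by
  have h2 : 0 < ξ.im := hξ
  have h1 := one_sub_ne hv
  have h3 : Complex.normSq v < 1 := by
    rw [mem_ball_zero_iff] at hv
    rw [← Complex.sq_norm]
    nlinarith [norm_nonneg v]
  have h4 : 0 < Complex.normSq (1 - v) := Complex.normSq_pos.2 h1
  change 0 < (imob ξ v).im
  rw [imob, Complex.div_im, ← sub_div]
  refine div_pos ?_ h4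
  rw [Complex.normSq_apply] at h3
  simp only [Complex.sub_re, Complex.sub_im, Complex.mul_re, Complex.mul_im, Complex.conj_re,
    Complex.conj_im, Complex.one_re, Complex.one_im]
  nlinarith [mul_pos h2 (sub_pos.2 h3)]

theorem conj_ne {ξ : ℂ} (hξ : ξ ∈ HH) : ξ - (starRingEnd ℂ) ξ ≠ 0 := den_ne hξ hξ

theorem conf_mob {ξ : ℂ} (hξ : ξ ∈ HH) : CI.Conf HH DD (mob ξ) (imob ξ) where
  ho := isOpen_HH
  ho' := isOpen_ball
  df := (differentiableOn_id.sub (differentiableOn_const _)).div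
    (differentiableOn_id.sub (differentiableOn_const _)) fun _ hu => den_ne hξ hu
  dg := ((differentiableOn_const _).sub ((differentiableOn_const _).mul differentiableOn_id)).div
    ((differentiableOn_const _).sub differentiableOn_id) fun _ hv => one_sub_ne hv
  mf := fun _ hu => mem_ball_zero_iff.2 (norm_mob_lt hξ hu)
  mg := fun _ hv => imob_mem hξ hv
  gf := fun u hu => by
    have h1 := den_ne hξ hu
    have h2 := conj_ne hξ
    have h3 : 1 - mob ξ u = (ξ - (starRingEnd ℂ) ξ) / (u - (starRingEnd ℂ) ξ) := by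
      rw [mob]
      field_simp
      ring
    rw [imob, h3, mob]
    field_simp
    ring
  fg := fun v hv => by
    have h1 := one_sub_ne hv
    have h2 := conj_ne hξ
    have h3 : imob ξ v - (starRingEnd ℂ) ξ = (ξ - (starRingEnd ℂ) ξ) / (1 - v) := by
      rw [imob]
      field_simp
      ring
    rw [mob, h3, imob]
    field_simp
    ring

theorem imob_zero (ξ : ℂ) : imob ξ 0 = ξ := by simp [imob]

/-- rotations of the disc -/
theorem conf_rot {c : ℂ} (hc : ‖c‖ = 1) :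
    CI.Conf DD DD (fun v => c * v) (fun v => (starRingEnd ℂ) c * v) where
  ho := isOpen_ball
  ho' := isOpen_ball
  df := (differentiableOn_const _).mul differentiableOn_id
  dg := (differentiableOn_const _).mul differentiableOn_id
  mf := fun v hv => by
    rw [mem_ball_zero_iff] at hv ⊢
    rwa [norm_mul, hc, one_mul]
  mg := fun v hv => by
    rw [mem_ball_zero_iff] at hv ⊢
    rwa [norm_mul, Complex.norm_conj, hc, one_mul]
  gf := fun v _ => by
    rw [← mul_assoc, ← Complex.normSq_eq_conj_mul_self, ← Complex.sq_norm, hc]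
    simp
  fg := fun v _ => by
    rw [← mul_assoc, Complex.mul_conj, ← Complex.sq_norm, hc]
    simp

/-- normalisation of the derivative of a Riemann map -/
theorem exists_normal {U : Set ℂ} {a b : ℂ → ℂ} (h : CI.Conf U DD a b) :
    ∃ a' b' : ℂ → ℂ, CI.Conf U DD a' b' ∧ (b' 0 = b 0 ∧ (deriv b' 0).im = 0 ∧ 0 < (deriv b' 0).re) ∧
      ∀ z, ‖a' z‖ = ‖a z‖ := by
  have h0 : (0 : ℂ) ∈ DD := mem_ball_self one_pos
  set d := deriv b 0 with hd
  have hd0 : d ≠ 0 := h.symm.deriv_ne h0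
  have hn : (0 : ℝ) < ‖d‖ := norm_pos_iff.2 hd0
  set c : ℂ := d / (‖d‖ : ℂ) with hc
  have hc1 : ‖c‖ = 1 := by
    rw [hc, norm_div, Complex.norm_real, Real.norm_eq_abs, abs_of_pos hn, div_self hn.ne']
  have hb : HasDerivAt b d ((starRingEnd ℂ) c * 0) := by
    rw [mul_zero]
    exact h.symm.hasDerivAt h0
  have hr : HasDerivAt (fun v : ℂ => (starRingEnd ℂ) c * v) ((starRingEnd ℂ) c * 1) 0 :=
    (hasDerivAt_id (0 : ℂ)).const_mul _
  have hD : deriv (fun v => b ((starRingEnd ℂ) c * v)) 0 = (‖d‖ : ℂ) := by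
    have h1 : HasDerivAt (fun v => b ((starRingEnd ℂ) c * v)) (d * ((starRingEnd ℂ) c * 1)) 0 :=
      hb.comp 0 hr
    rw [h1.deriv, hc, map_div₀, Complex.conj_ofReal, mul_one, ← mul_div_assoc, Complex.mul_conj,
      ← Complex.sq_norm]
    have h2 : (‖d‖ : ℂ) ≠ 0 := Complex.ofReal_ne_zero.2 hn.ne'
    push_cast
    field_simp
  refine ⟨_, _, conf_trans h (conf_rot hc1), ⟨by simp, ?_, ?_⟩, fun z => ?_⟩
  · rw [hD, Complex.ofReal_im]
  · rw [hD, Complex.ofReal_re]
    exact hn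
  · rw [norm_mul, hc1, one_mul]

/-- the normalised Riemann map attached to a conformal map onto the half-plane -/
theorem exists_riemann {U : Set ℂ} {p q : ℂ → ℂ} (h : CI.Conf U HH p q) {z : ℂ} (hz : z ∈ U) :
    ∃ a b : ℂ → ℂ, CI.Conf U DD a b ∧ (b 0 = z ∧ (deriv b 0).im = 0 ∧ 0 < (deriv b 0).re) ∧
      ∀ z', ‖a z'‖ = ‖mob (p z) (p z')‖ := by
  obtain ⟨a, b, h1, ⟨h2, h3⟩, h4⟩ := exists_normal (conf_trans h (conf_mob (h.mf hz)))
  refine ⟨a, b, h1, ⟨?_, h3⟩, h4⟩
  rw [h2, imob_zero, h.gf z hz]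

/-- the Green function of the half-plane -/
noncomputable def gH (u v : ℂ) : ℝ := -(1 / (2 * Real.pi)) * Real.log ‖mob u v‖

theorem I_mem : Complex.I ∈ HH := by
  change 0 < Complex.I.im
  simp

theorem gD_mob {u v : ℂ} (hu : u ∈ HH) (hv : v ∈ HH) :
    gD (mob Complex.I u) (mob Complex.I v) = gH u v := by
  have h1 := den_ne I_mem hu
  have h2 := den_ne I_mem hv
  have h3 := den_ne hu hv
  rw [Complex.conj_I, sub_neg_eq_add] at h1 h2
  have h4 : (starRingEnd ℂ) u - Complex.I ≠ 0 := by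
    intro h
    apply h1
    have h5 := congrArg (starRingEnd ℂ) h
    simpa using h5
  have e1 : mob Complex.I v - mob Complex.I u =
      2 * Complex.I * (v - u) / ((v + Complex.I) * (u + Complex.I)) := by
    simp only [mob, Complex.conj_I, sub_neg_eq_add]
    field_simp
    ring
  have e2 : 1 - (starRingEnd ℂ) (mob Complex.I u) * mob Complex.I v =
      -(2 * Complex.I * (v - (starRingEnd ℂ) u)) /
        (((starRingEnd ℂ) u - Complex.I) * (v + Complex.I)) := by
    simp only [mob, Complex.conj_I, sub_neg_eq_add, map_div₀, map_sub, map_add]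
    rw [← sub_eq_add_neg]
    field_simp
    ring
  have e3 : ‖(starRingEnd ℂ) u - Complex.I‖ = ‖u + Complex.I‖ := by
    rw [← Complex.norm_conj (u + Complex.I), map_add, Complex.conj_I, sub_eq_add_neg]
  have n1 : ‖u + Complex.I‖ ≠ 0 := norm_ne_zero_iff.2 h1
  have n2 : ‖v + Complex.I‖ ≠ 0 := norm_ne_zero_iff.2 h2
  have n3 : ‖v - (starRingEnd ℂ) u‖ ≠ 0 := norm_ne_zero_iff.2 h3
  rw [gD, gH, e1, e2]
  congr 2
  simp only [mob, norm_div, norm_mul, norm_neg, e3, Complex.norm_I, Complex.norm_ofNat]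
  field_simp

theorem norm_mob_symm (u v : ℂ) : ‖mob u v‖ = ‖mob v u‖ := by
  rw [mob, mob, norm_div, norm_div, norm_sub_rev v u, ← Complex.norm_conj (v - (starRingEnd ℂ) u),
    map_sub, Complex.conj_conj, norm_sub_rev ((starRingEnd ℂ) v) u]

theorem gH_symm (u v : ℂ) : gH u v = gH v u := by rw [gH, gH, norm_mob_symm]

theorem gH_nonneg {u v : ℂ} (hu : u ∈ HH) (hv : v ∈ HH) : 0 ≤ gH u v := by
  have h1 : Real.log ‖mob u v‖ ≤ 0 := Real.log_nonpos (norm_nonneg _) (norm_mob_lt hu hv).le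
  have h2 : 0 < 1 / (2 * Real.pi) := by positivity
  rw [gH]
  nlinarith

theorem mob_ne {u v : ℂ} (hu : u ∈ HH) (hv : v ∈ HH) (h : u ≠ v) : mob u v ≠ 0 :=
  div_ne_zero (sub_ne_zero.2 h.symm) (den_ne hu hv)

end Vale.Agent.P155.Tree.Grl
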