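import Vale.Agent.P155Z.GRL.Mob

/-!
# P155, block GRL: the Green function along the Loewner flow
-/

namespace Vale.Agent.P155.Tree.Grl

open MeasureTheory Filter Topology Set Metric Vale.Agent.P155 Vale.Agent.P155.CI Vale.Agent.P164

variable {W : ℝ → ℝ} {w w' : ℂ}

theorem logNorm_deriv {u : ℝ → ℂ} {c : ℂ} {S : Set ℝ} {s : ℝ}
    (h : HasDerivWithinAt u (u s * c) S s) (h0 : u s ≠ 0) :
    HasDerivWithinAt (fun x => Real.log ‖u x‖) c.re S s := by
  have hn : ‖u s‖ ≠ 0 := norm_ne_zero_iff.2 h0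
  have h1 := (h.norm_sq.log (pow_ne_zero 2 hn)).const_mul (1 / 2 : ℝ)
  have e : (fun x => Real.log ‖u x‖) = fun x => (1 / 2 : ℝ) * Real.log (‖u x‖ ^ 2) := by
    funext x
    rw [Real.log_pow]
    push_cast
    ring
  rw [e]
  refine h1.congr_deriv ?_
  have e2 : inner ℝ (u s) (u s * c) = ‖u s‖ ^ 2 * c.re := by
    rw [Complex.inner, Complex.sq_norm, Complex.normSq_apply]
    simp only [Complex.mul_re, Complex.mul_im, Complex.conj_re, Complex.conj_im]
    ring
  rw [e2]
  field_simp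

theorem gf_mem {t : ℝ} (ht : 0 ≤ t) (h : w ∈ loewnerDomain W t) : gf W w t ∈ HH := by
  have h1 := Zf_im_pos ht h
  rwa [Zf_im_eq] at h1

theorem gf_ne (hW : Continuous W) {t : ℝ} (ht : 0 ≤ t) (h : w ∈ loewnerDomain W t)
    (h' : w' ∈ loewnerDomain W t) (hne : w ≠ w') : gf W w t ≠ gf W w' t := by
  intro e
  apply hne
  refine flow_injOn ht hW.continuousOn h h' ?_
  change Zf W w t = Zf W w' t
  rw [Zf_eq, Zf_eq, e]

theorem gH_deriv (hW : Continuous W) {t s : ℝ} (h : w ∈ loewnerDomain W t)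
    (h' : w' ∈ loewnerDomain W t) (hne : w ≠ w') (hs : s ∈ Icc 0 t) :
    HasDerivWithinAt (fun x => gH (gf W w x) (gf W w' x))
      (-(2 / Real.pi * (((Zf W w s)⁻¹).im * ((Zf W w' s)⁻¹).im))) (Icc 0 t) s := by
  have hs1 := dom_mono hs.2 h
  have hs2 := dom_mono hs.2 h'
  have z1 := Zf_ne_zero hs.1 hs1
  have z2 := Zf_ne_zero hs.1 hs2
  have z3 : (starRingEnd ℂ) (Zf W w s) ≠ 0 := by simpa using z1
  have d1 := gf_hasDeriv h hs
  have d2 := gf_hasDeriv h' hs
  have d3 : HasDerivWithinAt (fun x => (starRingEnd ℂ) (gf W w x))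
      ((starRingEnd ℂ) (2 / Zf W w s)) (Icc 0 t) s := d1.star
  have hden := den_ne (gf_mem hs.1 hs1) (gf_mem hs.1 hs2)
  have d4 := (d2.sub d1).div (d2.sub d3) hden
  have e1 : gf W w s = Zf W w s + (W s : ℂ) := rfl
  have e2 : gf W w' s = Zf W w' s + (W s : ℂ) := rfl
  have d5 : HasDerivWithinAt (fun x => mob (gf W w x) (gf W w' x))
      (mob (gf W w s) (gf W w' s) * (2 * (Zf W w' s)⁻¹ *
        ((starRingEnd ℂ) (Zf W w s)⁻¹ - (Zf W w s)⁻¹))) (Icc 0 t) s := by
    refine HasDerivWithinAt.congr_deriv d4 ?_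
    simp only [Pi.sub_apply, mob, map_div₀, map_inv₀, map_ofNat]
    rw [e1, e2, map_add, Complex.conj_ofReal] at hden ⊢
    field_simp
    ring
  have d6 := (logNorm_deriv d5 (mob_ne (gf_mem hs.1 hs1) (gf_mem hs.1 hs2)
    (gf_ne hW hs.1 hs1 hs2 hne))).const_mul (-(1 / (2 * Real.pi)))
  refine HasDerivWithinAt.congr_deriv d6 ?_
  generalize (Zf W w s)⁻¹ = A
  generalize (Zf W w' s)⁻¹ = B
  simp only [Complex.mul_re, Complex.mul_im, Complex.sub_re, Complex.sub_im, Complex.conj_re,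
    Complex.conj_im, Complex.re_ofNat, Complex.im_ofNat]
  field_simp
  ring

/-- the centred flow, `0` at negative times -/
noncomputable def Zp (W : ℝ → ℝ) (p : ℝ × ℂ) : ℂ := if 0 ≤ p.1 then Zf W p.2 p.1 else 0

theorem measurable_Zp (hW : Continuous W) : Measurable (Zp W) := by
  classical
  have mS := measurableSet_aliveSet hW
  have mZ := (Zf_contOn hW).measurable_piecewise (continuousOn_const (c := (0 : ℂ))) mS
  have e : Zp W = {p : ℝ × ℂ | 0 ≤ p.1 ∧ p.2 ∈ loewnerDomain W p.1}.piecewise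
      (fun p : ℝ × ℂ => Zf W p.2 p.1) (fun _ => (0 : ℂ)) := by
    funext p
    by_cases hp : p ∈ {p : ℝ × ℂ | 0 ≤ p.1 ∧ p.2 ∈ loewnerDomain W p.1}
    · rw [Set.piecewise_eq_of_mem _ _ _ hp, Zp, if_pos hp.1]
    · rw [Set.piecewise_eq_of_notMem _ _ _ hp, Zp]
      by_cases h0 : 0 ≤ p.1
      · rw [if_pos h0]
        exact Zf_of_not_mem fun h => hp ⟨h0, h⟩
      · rw [if_neg h0]
  rw [e]
  exact mZ

theorem Zp_im_nonneg (p : ℝ × ℂ) : 0 ≤ (Zp W p).im := by
  unfold Zp
  split_ifs with h0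
  · by_cases h : p.2 ∈ loewnerDomain W p.1
    · exact (Zf_im_pos h0 h).le
    · rw [Zf_of_not_mem h, Complex.zero_im]
  · rw [Complex.zero_im]

/-- `Im (1 / Z)` -/
noncomputable def k0 (W : ℝ → ℝ) (p : ℝ × ℂ) : ℝ := ((Zp W p)⁻¹).im

/-- the same, cut at height `η` -/
noncomputable def kk (W : ℝ → ℝ) (η : ℝ) (p : ℝ × ℂ) : ℝ := if η ≤ (Zp W p).im then k0 W p else 0

theorem measurable_k0 (hW : Continuous W) : Measurable (k0 W) :=
  Complex.measurable_im.comp (measurable_Zp hW).inv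

theorem measurable_kk (hW : Continuous W) (η : ℝ) : Measurable (kk W η) :=
  Measurable.ite (measurableSet_le measurable_const (Complex.measurable_im.comp (measurable_Zp hW)))
    (measurable_k0 hW) measurable_const

theorem k0_nonpos (p : ℝ × ℂ) : k0 W p ≤ 0 := by
  rw [k0, Complex.inv_im]
  exact div_nonpos_of_nonpos_of_nonneg (neg_nonpos.2 (Zp_im_nonneg p)) (Complex.normSq_nonneg _)

theorem kk_nonpos (η : ℝ) (p : ℝ × ℂ) : kk W η p ≤ 0 := by
  unfold kk
  split_ifs
  · exact k0_nonpos p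
  · exact le_rfl

theorem k0_le_kk (η : ℝ) (p : ℝ × ℂ) : k0 W p ≤ kk W η p := by
  unfold kk
  split_ifs
  · exact le_rfl
  · exact k0_nonpos p

theorem abs_kk_le {η : ℝ} (hη : 0 < η) (p : ℝ × ℂ) : |kk W η p| ≤ η⁻¹ := by
  unfold kk
  split_ifs with h
  · refine (Complex.abs_im_le_norm _).trans ?_
    rw [norm_inv]
    exact inv_anti₀ hη (h.trans ((le_abs_self _).trans (Complex.abs_im_le_norm _)))
  · rw [abs_zero]
    positivity

theorem kk_mul_nonneg (η : ℝ) (p q : ℝ × ℂ) : 0 ≤ kk W η p * kk W η q :=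
  mul_nonneg_of_nonpos_of_nonpos (kk_nonpos η p) (kk_nonpos η q)

theorem k0_mul_nonneg (p q : ℝ × ℂ) : 0 ≤ k0 W p * k0 W q :=
  mul_nonneg_of_nonpos_of_nonpos (k0_nonpos p) (k0_nonpos q)

theorem kk_mul_le (η : ℝ) (p q : ℝ × ℂ) : kk W η p * kk W η q ≤ k0 W p * k0 W q := by
  have h1 := kk_nonpos (W := W) η p
  have h2 := kk_nonpos (W := W) η q
  have h3 := k0_le_kk (W := W) η p
  have h4 := k0_le_kk (W := W) η q
  nlinarith [mul_nonneg (sub_nonneg.2 h3) (neg_nonneg.2 h2),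
    mul_nonneg (sub_nonneg.2 h4) (neg_nonneg.2 (k0_nonpos (W := W) p))]

theorem kk_eventually (p : ℝ × ℂ) :
    ∀ᶠ k : ℕ in atTop, kk W (1 / ((k : ℝ) + 1)) p = k0 W p := by
  rcases (Zp_im_nonneg (W := W) p).eq_or_lt with h | h
  · refine Eventually.of_forall fun k => ?_
    unfold kk
    split_ifs
    · rfl
    · rw [k0, Complex.inv_im, ← h, neg_zero, zero_div]
  · filter_upwards [(tendsto_one_div_add_atTop_nhds_zero_nat (𝕜 := ℝ)).eventually
      (gt_mem_nhds h)] with k hk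
    rw [kk, if_pos hk.le]

theorem k0_eq {s : ℝ} (hs : 0 ≤ s) : k0 W (s, w) = ((Zf W w s)⁻¹).im := by
  rw [k0, Zp, if_pos hs]

theorem k0_dead {s : ℝ} (h : s ∉ life W w) : k0 W (s, w) = 0 := by
  rw [k0, Zp]
  split_ifs with h0
  · rw [Zf_of_not_mem fun h1 => h ⟨h0, h1⟩, inv_zero, Complex.zero_im]
  · rw [inv_zero, Complex.zero_im]

theorem k0_cont (hW : Continuous W) {t : ℝ} (ht : 0 ≤ t) (h : w ∈ loewnerDomain W t) :
    ContinuousOn (fun s => k0 W (s, w)) (Icc 0 t) :=
  (Complex.continuous_im.comp_continuousOn ((Zf_cont hW ht h).inv₀ fun _ hs =>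
    Zf_ne_zero hs.1 (dom_mono hs.2 h))).congr fun _ hs => k0_eq hs.1

/-- the decrease of the Green function up to the time `t` -/
theorem integral_k0 (hW : Continuous W) {t : ℝ} (ht : 0 ≤ t) (h : w ∈ loewnerDomain W t)
    (h' : w' ∈ loewnerDomain W t) (hne : w ≠ w') :
    IntegrableOn (fun s => k0 W (s, w) * k0 W (s, w')) (Ioc 0 t) ∧
    2 / Real.pi * ∫ s in Ioc 0 t, k0 W (s, w) * k0 W (s, w') =
      gH w w' - gH (gf W w t) (gf W w' t) := by
  have hc := (k0_cont hW ht h).mul (k0_cont hW ht h')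
  refine ⟨hc.integrableOn_Icc.mono_set Ioc_subset_Icc_self, ?_⟩
  have hi : IntervalIntegrable (fun s => -(2 / Real.pi * (k0 W (s, w) * k0 W (s, w')))) volume
      0 t := by
    refine ContinuousOn.intervalIntegrable ?_
    rw [uIcc_of_le ht]
    exact (continuousOn_const.mul hc).neg
  have key := intervalIntegral.integral_eq_sub_of_hasDeriv_right_of_le ht
    (f := fun x => gH (gf W w x) (gf W w' x))
    (fun s hs => (gH_deriv hW h h' hne hs).continuousWithinAt)
    (fun s hs => by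
      rw [k0_eq hs.1.le, k0_eq hs.1.le]
      exact ((gH_deriv hW h h' hne (Ioo_subset_Icc_self hs)).hasDerivAt
        (Icc_mem_nhds hs.1 hs.2)).hasDerivWithinAt) hi
  rw [intervalIntegral.integral_neg, intervalIntegral.integral_const_mul,
    intervalIntegral.integral_of_le ht, gf_zero (im_pos_of_dom ht h),
    gf_zero (im_pos_of_dom ht h')] at key
  linarith

/-- the total decrease of the Green function -/
noncomputable def Lam (W : ℝ → ℝ) (w w' : ℂ) : ℝ :=
  2 / Real.pi * ∫ s in Ioi (0 : ℝ), k0 W (s, w) * k0 W (s, w')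

theorem Lam_symm : Lam W w w' = Lam W w' w := by
  unfold Lam
  simp only [mul_comm]

/-- monotone cofinal sequences of times -/
structure Cof (W : ℝ → ℝ) (w : ℂ) (s : ℕ → ℝ) : Prop where
  mono : Monotone s
  mem : ∀ n, s n ∈ life W w
  cof : ∀ t ∈ life W w, ∀ᶠ n in atTop, t ≤ s n

theorem exists_cof (hw : w ∈ HH) : ∃ s, Cof W w s := by
  have : Nonempty (life W w) := ⟨⟨0, le_rfl, dom_zero.2 hw⟩⟩
  have : OrdConnected (life W w) :=
    ⟨fun _ ha _ hb _ hc => ⟨ha.1.trans hc.1, dom_mono hc.2 hb.2⟩⟩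
  obtain ⟨xs, h1, h2⟩ := exists_seq_monotone_tendsto_atTop_atTop (life W w)
  refine ⟨fun n => xs n, fun _ _ h => h1 h, fun n => (xs n).2, fun t ht => ?_⟩
  exact h2.eventually (eventually_ge_atTop ⟨t, ht⟩)

theorem pair_limit (hW : Continuous W) (hne : w ≠ w') (hl : life W w ⊆ life W w') {s : ℕ → ℝ}
    (hs : Cof W w s) :
    IntegrableOn (fun x => k0 W (x, w) * k0 W (x, w')) (Ioi 0) ∧
    Tendsto (fun n => gH (gf W w (s n)) (gf W w' (s n))) atTop (𝓝 (gH w w' - Lam W w w')) := by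
  have H := fun n => integral_k0 hW (hs.mem n).1 (hs.mem n).2 (hl (hs.mem n)).2 hne
  have hm : Monotone fun n => Ioc (0 : ℝ) (s n) := fun _ _ h => Ioc_subset_Ioc_right (hs.mono h)
  have hsub : ∀ n, Ioc (0 : ℝ) (s n) ⊆ ⋃ n, Ioc (0 : ℝ) (s n) :=
    fun n => subset_iUnion (fun n => Ioc (0 : ℝ) (s n)) n
  have mU : MeasurableSet (⋃ n, Ioc (0 : ℝ) (s n)) :=
    MeasurableSet.iUnion fun _ => measurableSet_Ioc
  have hcov : AECover (volume.restrict (⋃ n, Ioc (0 : ℝ) (s n))) atTop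
      fun n => Ioc (0 : ℝ) (s n) := by
    refine ⟨?_, fun _ => measurableSet_Ioc⟩
    filter_upwards [ae_restrict_mem mU] with x hx
    obtain ⟨n, hn⟩ := mem_iUnion.1 hx
    filter_upwards [eventually_ge_atTop n] with m hnm using hm hnm hn
  have hpi : 0 < 2 / Real.pi := by positivity
  have hint : IntegrableOn (fun x => k0 W (x, w) * k0 W (x, w')) (⋃ n, Ioc (0 : ℝ) (s n)) := by
    refine hcov.integrable_of_integral_bounded_of_nonneg_ae (gH w w' / (2 / Real.pi))
      (fun n => ?_) (Eventually.of_forall fun x => k0_mul_nonneg _ _)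
      (Eventually.of_forall fun n => ?_)
    · rw [IntegrableOn, Measure.restrict_restrict_of_subset (hsub n)]
      exact (H n).1
    · rw [Measure.restrict_restrict_of_subset (hsub n), le_div_iff₀' hpi, (H n).2]
      have := gH_nonneg (gf_mem (hs.mem n).1 (hs.mem n).2)
        (gf_mem (hs.mem n).1 (hl (hs.mem n)).2)
      linarith
  have hz : ∀ x ∈ Ioi (0 : ℝ) \ ⋃ n, Ioc (0 : ℝ) (s n), k0 W (x, w) * k0 W (x, w') = 0 := by
    intro x hx
    have h1 : x ∉ life W w := fun h => by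
      obtain ⟨n, hn⟩ := (hs.cof x h).exists
      exact hx.2 (hsub n ⟨hx.1, hn⟩)
    rw [k0_dead h1, zero_mul]
  refine ⟨hint.of_forall_sdiff_eq_zero measurableSet_Ioi hz, ?_⟩
  have h1 := (tendsto_setIntegral_of_monotone (fun _ => measurableSet_Ioc) hm hint).const_mul
    (2 / Real.pi)
  rw [← setIntegral_eq_of_subset_of_forall_sdiff_eq_zero measurableSet_Ioi
    (iUnion_subset fun _ => Ioc_subset_Ioi_self) hz] at h1
  refine ((tendsto_const_nhds (x := gH w w')).sub h1).congr fun n => ?_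
  rw [(H n).2]
  ring

theorem life_total (W : ℝ → ℝ) (w w' : ℂ) : life W w ⊆ life W w' ∨ life W w' ⊆ life W w := by
  by_contra h
  rw [not_or, not_subset, not_subset] at h
  obtain ⟨⟨a, ha, ha'⟩, b, hb, hb'⟩ := h
  rcases le_total a b with hab | hab
  · exact ha' ⟨ha.1, dom_mono hab hb.2⟩
  · exact hb' ⟨hb.1, dom_mono hab ha.2⟩

theorem pair_bound (hW : Continuous W) (hw : w ∈ HH) (hw' : w' ∈ HH) (hne : w ≠ w') :
    IntegrableOn (fun x => k0 W (x, w) * k0 W (x, w')) (Ioi 0) ∧ Lam W w w' ≤ gH w w' := by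
  have key : ∀ w w' : ℂ, w ∈ HH → w ≠ w' → life W w ⊆ life W w' →
      IntegrableOn (fun x => k0 W (x, w) * k0 W (x, w')) (Ioi 0) ∧ Lam W w w' ≤ gH w w' := by
    intro w w' hw hne hl
    obtain ⟨s, hs⟩ := exists_cof (W := W) hw
    obtain ⟨h1, h2⟩ := pair_limit hW hne hl hs
    refine ⟨h1, sub_nonneg.1 (ge_of_tendsto' h2 fun n => ?_)⟩
    exact gH_nonneg (gf_mem (hs.mem n).1 (hs.mem n).2) (gf_mem (hs.mem n).1 (hl (hs.mem n)).2)
  rcases life_total W w w' with h | h
  · exact key w w' hw hne h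
  · obtain ⟨h1, h2⟩ := key w' w hw' hne.symm h
    rw [Lam_symm, gH_symm]
    exact ⟨by simpa only [mul_comm] using h1, h2⟩

/-- the truncated decrease -/
noncomputable def LL (W : ℝ → ℝ) (η T : ℝ) (w w' : ℂ) : ℝ :=
  2 / Real.pi * ∫ s in Ioc (0 : ℝ) T, kk W η (s, w) * kk W η (s, w')

theorem LL_nonneg (η T : ℝ) : 0 ≤ LL W η T w w' :=
  mul_nonneg (by positivity) (integral_nonneg fun _ => kk_mul_nonneg _ _ _)

theorem LL_le (hW : Continuous W) (hw : w ∈ HH) (hw' : w' ∈ HH) (hne : w ≠ w') (η T : ℝ) :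
    LL W η T w w' ≤ gH w w' := by
  obtain ⟨h1, h2⟩ := pair_bound hW hw hw' hne
  refine le_trans (mul_le_mul_of_nonneg_left ?_ (by positivity)) h2
  refine le_trans (integral_mono_of_nonneg (Eventually.of_forall fun _ => kk_mul_nonneg _ _ _)
    (h1.mono_set Ioc_subset_Ioi_self) (Eventually.of_forall fun _ => kk_mul_le _ _ _)) ?_
  exact setIntegral_mono_set h1 (Eventually.of_forall fun _ => k0_mul_nonneg _ _)
    (Eventually.of_forall Ioc_subset_Ioi_self)

theorem LL_tendsto (hW : Continuous W) (hw : w ∈ HH) (hw' : w' ∈ HH) (hne : w ≠ w') :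
    Tendsto (fun k : ℕ => LL W (1 / ((k : ℝ) + 1)) k w w') atTop (𝓝 (Lam W w w')) := by
  obtain ⟨h1, -⟩ := pair_bound hW hw hw' hne
  refine Tendsto.const_mul _ ?_
  have e : ∀ k : ℕ, ∫ s in Ioc (0 : ℝ) k, kk W (1 / ((k : ℝ) + 1)) (s, w) *
      kk W (1 / ((k : ℝ) + 1)) (s, w') = ∫ s in Ioi (0 : ℝ), (Iic (k : ℝ)).indicator
        (fun s => kk W (1 / ((k : ℝ) + 1)) (s, w) * kk W (1 / ((k : ℝ) + 1)) (s, w')) s := by
    intro k
    rw [integral_indicator measurableSet_Iic, Measure.restrict_restrict measurableSet_Iic,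
      inter_comm, Ioi_inter_Iic]
  simp only [e]
  refine tendsto_integral_of_dominated_convergence _ (fun k => ?_) h1 (fun k => ?_) ?_
  · refine (Measurable.indicator ?_ measurableSet_Iic).aestronglyMeasurable
    exact ((measurable_kk hW _).comp (measurable_id.prodMk measurable_const)).mul
      ((measurable_kk hW _).comp (measurable_id.prodMk measurable_const))
  · refine Eventually.of_forall fun x => ?_
    refine (norm_indicator_le_norm_self _ _).trans ?_
    rw [Real.norm_of_nonneg (kk_mul_nonneg _ _ _)]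
    exact kk_mul_le _ _ _
  · refine Eventually.of_forall fun x => tendsto_const_nhds.congr' ?_
    filter_upwards [kk_eventually (W := W) (x, w), kk_eventually (W := W) (x, w'),
      tendsto_natCast_atTop_atTop.eventually (eventually_ge_atTop x)] with k e1 e2 hk
    rw [indicator_of_mem (show x ∈ Iic (k : ℝ) from hk), e1, e2]

theorem measurable_LL (hW : Continuous W) (η T : ℝ) :
    Measurable fun p : ℂ × ℂ => LL W η T p.1 p.2 := by
  refine Measurable.const_mul (StronglyMeasurable.measurable ?_) _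
  refine StronglyMeasurable.integral_prod_left (f := fun (s : ℝ) (p : ℂ × ℂ) =>
    kk W η (s, p.1) * kk W η (s, p.2)) (Measurable.stronglyMeasurable ?_)
  exact ((measurable_kk hW _).comp (measurable_fst.prodMk measurable_snd.fst)).mul
    ((measurable_kk hW _).comp (measurable_fst.prodMk measurable_snd.snd))

theorem measurable_Lam (hW : Continuous W) : Measurable fun p : ℂ × ℂ => Lam W p.1 p.2 := by
  refine Measurable.const_mul (StronglyMeasurable.measurable ?_) _
  refine StronglyMeasurable.integral_prod_left (f := fun (s : ℝ) (p : ℂ × ℂ) =>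
    k0 W (s, p.1) * k0 W (s, p.2)) (Measurable.stronglyMeasurable ?_)
  exact ((measurable_k0 hW).comp (measurable_fst.prodMk measurable_snd.fst)).mul
    ((measurable_k0 hW).comp (measurable_fst.prodMk measurable_snd.snd))

theorem Lam_nonneg : 0 ≤ Lam W w w' :=
  mul_nonneg (by positivity) (integral_nonneg fun _ => k0_mul_nonneg _ _)

end Vale.Agent.P155.Tree.Grl
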