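import Vale.Agent.P155Z.GRL.Flow

/-!
# P155, block GRL: the limit of the Green function at the swallowing time
-/

namespace Vale.Agent.P155.Tree.Grl

open MeasureTheory Filter Topology Set Metric Vale.Agent.P155 Vale.Agent.P155.CI Vale.Agent.P164

variable {W : ℝ → ℝ} {w w' : ℂ} {Ω : Set ℂ} {f g : ℂ → ℂ}

theorem calm_sub : calm W ⊆ HH := fun _ h => h.1

theorem dom_sub {t : ℝ} (ht : 0 ≤ t) : loewnerDomain W t ⊆ HH := fun _ h => im_pos_of_dom ht h

theorem comp_sub {V : Set ℂ} (hV : Comp W V) : V ⊆ calm W := by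
  obtain ⟨w, -, rfl⟩ := hV
  exact connectedComponentIn_subset _ _

theorem comp_open (h1 : GEO1) (hW : Continuous W) {V : Set ℂ} (hV : Comp W V) : IsOpen V := by
  obtain ⟨w, -, rfl⟩ := hV
  exact (h1 W hW).1.connectedComponentIn

theorem comp_eq {V : Set ℂ} (hV : Comp W V) (hw : w ∈ V) : V = connectedComponentIn (calm W) w := by
  obtain ⟨w₀, -, rfl⟩ := hV
  exact connectedComponentIn_eq hw

/-- near the boundary points of a component some points die before the component -/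
theorem near_frontier (h1 : GEO1) (hW : Continuous W) {V : Set ℂ} (hV : Comp W V) (hw : w ∈ V)
    {w₀ : ℂ} (hc : w₀ ∈ closure V) (hn : w₀ ∉ V) {r : ℝ} (hr : 0 < r) :
    ∃ t ∈ life W w, ¬ ball w₀ r ⊆ loewnerDomain W t := by
  by_contra hcon
  push Not at hcon
  obtain ⟨w₁, hw₁, hw₁V⟩ := mem_closure_iff.1 hc _ isOpen_ball (mem_ball_self hr)
  obtain ⟨-, -, -, g4, g5, -⟩ := h1 W hW
  have hl : life W w₁ = life W w := g4 V hV w hw w₁ hw₁V
  have hb := g5 w₀ r w₁ hw₁ (fun t ht => hcon t (hl ▸ ht)) (calm_sub (comp_sub hV hw₁V))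
  have h2 : ball w₀ r ⊆ connectedComponentIn (calm W) w₁ :=
    (convex_ball w₀ r).isPreconnected.subset_connectedComponentIn hw₁ fun x hx => (hb x hx).1
  apply hn
  rw [comp_eq hV hw₁V]
  exact h2 (mem_ball_self hr)

theorem gH_eq (u v : ℂ) : gH u v = -(1 / (2 * Real.pi)) * Real.log ‖mob u v‖ := rfl

/-- the kernel theorem along the flow -/
theorem kernel_limit (h1 : GEO1) (hC : CARA) (hW : Continuous W) (hΩ : Bornology.IsBounded Ω)
    (hf : CI.Conf HH Ω f g) {V : Set ℂ} (hV : Comp W V) (hw : w ∈ V) {p q : ℂ → ℂ}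
    (hp : CI.Conf (f '' V) HH p q) {s : ℕ → ℝ} (hs : Cof W w s) (hw' : w' ∈ HH)
    (hl : life W w ⊆ life W w') :
    (w' ∈ V → Tendsto (fun n => ‖mob (gf W w (s n)) (gf W w' (s n))‖) atTop
      (𝓝 ‖mob (p (f w)) (p (f w'))‖)) ∧
    (w' ∉ V → Tendsto (fun n => ‖mob (gf W w (s n)) (gf W w' (s n))‖) atTop (𝓝 1)) := by
  have hVH : V ⊆ HH := (comp_sub hV).trans calm_sub
  have hwH : w ∈ HH := hVH hw
  obtain ⟨-, -, -, g4, -, g6⟩ := h1 W hW
  have hD : ∀ n, loewnerDomain W (s n) ⊆ HH := fun n => dom_sub (hs.mem n).1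
  have H : ∀ n, ∃ a b : ℂ → ℂ, CI.Conf (f '' loewnerDomain W (s n)) DD a b ∧
      (b 0 = f w ∧ (deriv b 0).im = 0 ∧ 0 < (deriv b 0).re) ∧
      ∀ z', ‖a z'‖ = ‖mob (gf W w (s n)) (gf W (g z') (s n))‖ := by
    intro n
    obtain ⟨b, hb⟩ := g6 (s n) (hs.mem n).1
    have h2 := conf_trans (conf_restrict hf (hD n) hb.ho).symm hb
    obtain ⟨a', b', h3, h4, h5⟩ := exists_riemann h2 (mem_image_of_mem f (hs.mem n).2)
    refine ⟨a', b', h3, h4, fun z' => ?_⟩
    rw [h5 z', hf.gf w hwH]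
  choose a b ha hb hab using H
  obtain ⟨a', b', ha', hb', hab'⟩ := exists_riemann hp (mem_image_of_mem f hw)
  have hUΩ : ∀ n, f '' loewnerDomain W (s n) ⊆ Ω := by
    rintro n _ ⟨x, hx, rfl⟩
    exact hf.mf (hD n hx)
  have hVU : ∀ n, f '' V ⊆ f '' loewnerDomain W (s n) := fun n => image_mono fun x hx => by
    have h2 : s n ∈ life W x := by
      rw [g4 V hV w hw x hx]
      exact hs.mem n
    exact h2.2
  have key := hC (fun n => f '' loewnerDomain W (s n)) (f '' V) (f w) a b a' b' ha ha'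
    (hΩ.subset (iUnion_subset hUΩ)) hb hb'
    (fun K _ hK => Eventually.of_forall fun n => hK.trans (hVU n)) (by
      intro z hz ε hε
      by_cases hzΩ : z ∈ Ω
      · have hgz : g z ∈ HH := hf.mg hzΩ
        have hcl : g z ∈ closure V := by
          have h2 : ContinuousWithinAt g (f '' V) z :=
            (hf.dg.continuousOn.continuousAt (hf.ho'.mem_nhds hzΩ)).continuousWithinAt
          refine closure_mono ?_ (h2.mem_closure_image (frontier_subset_closure hz))
          rintro _ ⟨_, ⟨x, hx, rfl⟩, rfl⟩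
          rw [hf.gf x (hVH hx)]
          exact hx
        have hnV : g z ∉ V := fun h => by
          have h2 : z ∈ f '' V := ⟨g z, h, hf.fg z hzΩ⟩
          rw [hp.ho.frontier_eq] at hz
          exact hz.2 h2
        have hca : ContinuousAt f (g z) :=
          hf.df.continuousOn.continuousAt (hf.ho.mem_nhds hgz)
        have h3 : ∀ᶠ x in 𝓝 (g z), x ∈ HH ∧ dist (f x) z < ε := by
          refine Eventually.and (hf.ho.mem_nhds hgz) ?_
          have h4 := hca.eventually (ball_mem_nhds (f (g z)) hε)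
          rw [hf.fg z hzΩ] at h4
          exact h4
        obtain ⟨r, hr, hball⟩ := Metric.eventually_nhds_iff_ball.1 h3
        obtain ⟨t, ht, hnot⟩ := near_frontier h1 hW hV hw hcl hnV hr
        obtain ⟨x, hx, hxt⟩ := not_subset.1 hnot
        filter_upwards [hs.cof t ht] with n hn
        refine ⟨f x, ?_, (hball x hx).2⟩
        rintro ⟨y, hy, e⟩
        have h5 : y = x := hf.injOn (hD n hy) (hball x hx).1 e
        rw [h5] at hy
        exact hxt (dom_mono hn hy)
      · exact Eventually.of_forall fun n => ⟨z, fun h => hzΩ (hUΩ n h), by rwa [dist_self]⟩)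
  have e : ∀ n, ‖a n (f w')‖ = ‖mob (gf W w (s n)) (gf W w' (s n))‖ := fun n => by
    rw [hab n, hf.gf w' hw']
  constructor
  · intro hV'
    rw [← hab' (f w')]
    exact ((key.2.1.tendsto_at (mem_image_of_mem f hV')).norm).congr e
  · intro hV'
    refine (key.2.2 (f w') ?_ fun n => mem_image_of_mem f (hl (hs.mem n)).2).congr e
    rintro ⟨y, hy, e'⟩
    rw [hf.injOn (hVH hy) hw' e'] at hy
    exact hV' hy

/-- the remaining Green function: two points of the same component -/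
theorem rem_same (h1 : GEO1) (hC : CARA) (hW : Continuous W) (hΩ : Bornology.IsBounded Ω)
    (hf : CI.Conf HH Ω f g) {V : Set ℂ} (hV : Comp W V) {p q : ℂ → ℂ}
    (hp : CI.Conf (f '' V) HH p q) (hw : w ∈ V) (hw' : w' ∈ V) (hne : w ≠ w') :
    gH w w' - Lam W w w' = gH (p (f w)) (p (f w')) := by
  have hVH : V ⊆ HH := (comp_sub hV).trans calm_sub
  obtain ⟨s, hs⟩ := exists_cof (W := W) (hVH hw)
  have hl : life W w ⊆ life W w' := ((h1 W hW).2.2.2.1 V hV w hw w' hw').ge
  have h2 := (kernel_limit h1 hC hW hΩ hf hV hw hp hs (hVH hw') hl).1 hw'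
  have m1 := mem_image_of_mem f hw
  have m2 := mem_image_of_mem f hw'
  have h3 : ‖mob (p (f w)) (p (f w'))‖ ≠ 0 :=
    norm_ne_zero_iff.2 (mob_ne (hp.mf m1) (hp.mf m2) fun e =>
      hne (hf.injOn (hVH hw) (hVH hw') (hp.injOn m1 m2 e)))
  exact tendsto_nhds_unique (pair_limit hW hne hl hs).2 ((h2.log h3).const_mul _)

/-- the remaining Green function: two points in different components -/
theorem rem_diff (h1 : GEO1) (hC : CARA) (hW : Continuous W) (hΩ : Bornology.IsBounded Ω)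
    (hf : CI.Conf HH Ω f g)
    (hp : ∀ V, Comp W V → ∃ p q : ℂ → ℂ, CI.Conf (f '' V) HH p q) (hw : w ∈ calm W)
    (hw' : w' ∈ calm W) (hd : ∀ V, Comp W V → w ∈ V → w' ∉ V) :
    gH w w' - Lam W w w' = 0 := by
  have key : ∀ w w' : ℂ, w ∈ calm W → w' ∈ calm W → (∀ V, Comp W V → w ∈ V → w' ∉ V) →
      life W w ⊆ life W w' → gH w w' - Lam W w w' = 0 := by
    intro w w' hw hw' hd hl
    have hV : Comp W (connectedComponentIn (calm W) w) := ⟨w, hw, rfl⟩
    have hwV := mem_connectedComponentIn hw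
    have hn := hd _ hV hwV
    have hne : w ≠ w' := fun e => hn (e ▸ hwV)
    obtain ⟨p, q, hpq⟩ := hp _ hV
    obtain ⟨s, hs⟩ := exists_cof (W := W) (calm_sub hw)
    have h2 := (kernel_limit h1 hC hW hΩ hf hV hwV hpq hs (calm_sub hw') hl).2 hn
    have h3 := (h2.log one_ne_zero).const_mul (-(1 / (2 * Real.pi)))
    rw [Real.log_one, mul_zero] at h3
    exact tendsto_nhds_unique (pair_limit hW hne hl hs).2 h3
  rcases life_total W w w' with h | h
  · exact key w w' hw hw' hd h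
  · rw [gH_symm, Lam_symm]
    exact key w' w hw' hw (fun V hV h2 h3 => hd V hV h3 h2) h

/-- the images of the components are conformally equivalent to the half-plane -/
theorem comp_conf (h3 : GEO3) (hT : TOPO) (hW : Continuous W) (hΩ : Dom Ω)
    (hf : CI.Conf HH Ω f g) {V : Set ℂ} (hV : Comp W V) :
    ∃ p q : ℂ → ℂ, CI.Conf (f '' V) HH p q := by
  obtain ⟨-, -, g3, g4, -⟩ := h3 Ω f g W hΩ hf hW
  have hD : Dom (f '' V) := hT.2.2 Ω _ hΩ.1 hΩ.2.1 g3 _ ((g4 _).2 ⟨V, hV, rfl⟩)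
  obtain ⟨z, hz⟩ := hD.2.2.1
  obtain ⟨q, p, h, -⟩ := (hT.1 _ hD).2.2 z hz
  exact ⟨p, q, h.symm⟩

end Vale.Agent.P155.Tree.Grl
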